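import Vale.Agent.P284.H451.D.Sard
import Vale.Agent.P277.H73.IFT

/-!
# P277Z: general members of a linear system are transversal to the coordinate strata
-/

open scoped Topology
open Set Filter Metric MeasureTheory
open Vale.Agent.P272.K (Cm)

noncomputable section

namespace Vale.Agent.P277Z.Bert

variable {n p : ℕ}

/-- the projection which kills the coordinates in `I` -/
def kil (I : Finset (Fin n)) : Cm n →L[ℂ] Cm n :=
  ContinuousLinearMap.pi fun i => if i ∈ I then 0 else ContinuousLinearMap.proj i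

theorem kil_apply (I : Finset (Fin n)) (w : Cm n) (i : Fin n) :
    kil I w i = if i ∈ I then 0 else w i := by
  rw [kil, ContinuousLinearMap.pi_apply]
  split_ifs <;> rfl

theorem core0 {r : ℝ} {u : Fin p → Cm n → ℂ} (hu : ∀ a, ∀ w ∈ ball (0 : Cm n) r, AnalyticAt ℂ (u a) w)
    (a₀ : Fin p) (h1 : ∀ w ∈ ball (0 : Cm n) r, u a₀ w = 1) (I : Finset (Fin n)) :
    ∀ᵐ c : Fin p → ℂ, ∀ w ∈ ball (0 : Cm n) r, (∀ i ∈ I, w i = 0) → ∑ a, c a * u a w = 0 →
      ∃ j ∉ I, fderiv ℂ (fun w => ∑ a, c a * u a w) w (Pi.single j 1) ≠ 0 := by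
  have hk : ∀ w ∈ ball (0 : Cm n) r, kil I w ∈ ball (0 : Cm n) r := fun w hw => by
    rw [mem_ball_zero_iff] at hw ⊢
    refine lt_of_le_of_lt (pi_norm_le_iff_of_nonneg (norm_nonneg _) |>.2 fun i => ?_) hw
    rw [kil_apply]
    split_ifs
    · simp
    · exact norm_le_pi_norm w i
  let S : Cm n × (Fin p → ℂ) → ℂ := fun q => ∑ a, q.2 a * u a (kil I q.1)
  have hS : ∀ q ∈ ball (0 : Cm n) r ×ˢ (univ : Set (Fin p → ℂ)), AnalyticAt ℂ S q := fun q hq =>
    Finset.analyticAt_fun_sum _ fun a _ =>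
      (((ContinuousLinearMap.proj a).comp (ContinuousLinearMap.snd ℂ _ _)).analyticAt q).mul
        (AnalyticAt.fun_comp (g := u a) (f := fun q : Cm n × (Fin p → ℂ) => kil I q.1)
          (hu a _ (hk _ hq.1)) (((kil I).comp (ContinuousLinearMap.fst ℂ _ _)).analyticAt q))
  filter_upwards [P284.H451.D.sard_ae (isOpen_ball.prod isOpen_univ)
    (T := fun q => q.2 - S q • Pi.single a₀ 1) fun q hq =>
      analyticAt_snd.sub ((hS q hq).smul analyticAt_const)] with c hc w hw hI h0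
  have hw' : kil I w = w := funext fun i => by
    rw [kil_apply]
    split_ifs with h
    exacts [(hI i h).symm, rfl]
  have hd := (hS (w, c) ⟨hw, trivial⟩).differentiableAt.hasFDerivAt
  obtain ⟨⟨v, c'⟩, e⟩ := hc (w, c) ⟨hw, trivial⟩ (by simp [S, hw', h0]) (Pi.single a₀ 1)
  rw [(hasFDerivAt_snd.fun_sub (hd.smul_const _)).fderiv] at e
  have e1 : c' = (1 + fderiv ℂ S (w, c) (v, c')) • Pi.single a₀ 1 := by
    rw [add_smul, one_smul]
    exact sub_eq_iff_eq_add.1 e
  have hh : DifferentiableAt ℂ (fun w => ∑ a, c a * u a w) w :=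
    (Finset.analyticAt_fun_sum _ fun a _ => analyticAt_const.mul (hu a w hw)).differentiableAt
  have e2 : fderiv ℂ S (w, c) (v, 0) = fderiv ℂ (fun w => ∑ a, c a * u a w) w (kil I v) := by
    have a1 := hd.comp w (hasFDerivAt_prodMk_left (𝕜 := ℂ) w c)
    have a2 := (hw'.symm ▸ hh.hasFDerivAt :
      HasFDerivAt (fun w => ∑ a, c a * u a w) _ (kil I w)).comp w (kil I).hasFDerivAt
    simpa [hw'] using DFunLike.congr_fun (a1.unique a2) v
  have e3 : fderiv ℂ S (w, c) (0, c') = ∑ a, c' a * u a w := by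
    have a1 := hd.comp c (hasFDerivAt_prodMk_right (𝕜 := ℂ) w c)
    have a2 := (∑ a, u a w • ContinuousLinearMap.proj (R := ℂ) (φ := fun _ : Fin p => ℂ)
      a).hasFDerivAt (x := c)
    have a3 := DFunLike.congr_fun (a1.unique (a2.congr_of_eventuallyEq (.of_forall fun c => by
      simp [S, hw', mul_comm]))) c'
    simpa [mul_comm] using a3
  have e4 : fderiv ℂ S (w, c) (v, c') = fderiv ℂ S (w, c) (v, 0) + fderiv ℂ S (w, c) (0, c') := by
    rw [← map_add, Prod.mk_add_mk, add_zero, zero_add]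
  have e5 : ∑ a, c' a * u a w = 1 + fderiv ℂ S (w, c) (v, c') := by
    conv_lhs => rw [e1]
    rw [Finset.sum_eq_single a₀ (fun b _ hb => by simp [hb]) (by simp), h1 w hw]
    simp
  by_contra! hc'
  have e6 : fderiv ℂ (fun w => ∑ a, c a * u a w) w (kil I v) = 0 := by
    rw [pi_eq_sum_univ' (kil I v), map_sum]
    refine Finset.sum_eq_zero fun j _ => ?_
    rw [map_smul, kil_apply]
    split_ifs with h
    · exact zero_smul _ _
    · rw [hc' j h, smul_zero]
  rw [e2, e6, e3, e5] at e4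
  simp at e4

theorem core {ι : Type} [Fintype ι] {t : Cm n → Cm n} {z₀ : Cm n} (ht : AnalyticAt ℂ t z₀)
    (h0 : t z₀ = 0) (hi : Function.Injective (fderiv ℂ t z₀)) {u : ι → Cm n → ℂ}
    (hu : ∀ a, AnalyticAt ℂ (u a) z₀) (a₀ : ι) (h1 : ∀ᶠ z in 𝓝 z₀, u a₀ z = 1) :
    ∃ U ∈ 𝓝 z₀, (∀ z ∈ U, Function.Injective (fderiv ℂ t z)) ∧
      ∀ᵐ c : ι → ℂ, ∀ z ∈ U, ∑ a, c a * u a z = 0 → ∃ j v, t z j ≠ 0 ∧
        fderiv ℂ t z v = Pi.single j 1 ∧ fderiv ℂ (fun z => ∑ a, c a * u a z) z v ≠ 0 := by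
  obtain ⟨e, rfl, hz, he, he'⟩ := P277.H73.exists_localInv ht hi
  have hT : Tendsto e.symm (𝓝 0) (𝓝 z₀) := by
    have := e.continuousAt_symm (e.map_source hz)
    rwa [ContinuousAt, e.left_inv hz, h0] at this
  obtain ⟨r, hr, hb⟩ := Metric.eventually_nhds_iff_ball.1
    ((hT.eventually (h1.and (eventually_all.2 fun a => (hu a).eventually_analyticAt))).and
      (h0 ▸ e.open_target.mem_nhds (e.map_source hz)))
  have hd : ∀ z ∈ e.source, (fderiv ℂ e.symm (e z)).comp (fderiv ℂ e z) = .id ℂ _ ∧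
      (fderiv ℂ e z).comp (fderiv ℂ e.symm (e z)) = .id ℂ _ := fun z hz => by
    have a1 := (he z hz).differentiableAt.hasFDerivAt
    have a2 := (he' _ (e.map_source hz)).differentiableAt.hasFDerivAt
    refine ⟨(a2.comp z a1).unique ((hasFDerivAt_id z).congr_of_eventuallyEq
      (e.eventually_left_inverse hz)), (HasFDerivAt.comp (e z) ?_ a2).unique
        ((hasFDerivAt_id _).congr_of_eventuallyEq (e.eventually_right_inverse' hz))⟩
    rwa [e.left_inv hz]
  refine ⟨e.source ∩ e ⁻¹' ball 0 r, inter_mem (e.open_source.mem_nhds hz)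
    (ht.continuousAt.preimage_mem_nhds (h0 ▸ ball_mem_nhds _ hr)), fun z hz => ?_, ?_⟩
  · refine Function.Injective.of_comp (f := fderiv ℂ e.symm (e z)) ?_
    rw [← ContinuousLinearMap.coe_comp, (hd z hz.1).1]
    exact fun _ _ h => h
  let σ := Fintype.equivFin ι
  have hc := eventually_all.2 fun I => core0 (r := r) (u := fun a w => u (σ.symm a) (e.symm w))
    (fun a w hw => AnalyticAt.fun_comp ((hb w hw).1.2 _) (he' w (hb w hw).2)) (σ a₀)
    (fun w hw => by rw [σ.symm_apply_apply, (hb w hw).1.1]) I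
  filter_upwards [(volume_measurePreserving_piCongrLeft (fun _ : Fin _ => ℂ)
    σ).quasiMeasurePreserving.ae hc] with c hc z hz hs
  have e1 : ∀ z, ∑ a, MeasurableEquiv.piCongrLeft (fun _ : Fin _ => ℂ) σ c a * u (σ.symm a) z =
      ∑ a, c a * u a z := fun z => by
    rw [← σ.sum_comp]
    simp [MeasurableEquiv.piCongrLeft_apply_apply]
  simp only [e1] at hc
  classical
  obtain ⟨j, hj, h2⟩ := hc (Finset.univ.filter fun i => e z i = 0) (e z) hz.2 (by simp)
    (by rw [e.left_inv hz.1, hs])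
  refine ⟨j, fderiv ℂ e.symm (e z) (Pi.single j 1), by simpa using hj,
    DFunLike.congr_fun (hd z hz.1).2 _, ?_⟩
  have a1 : DifferentiableAt ℂ (fun z => ∑ a, c a * u a z) (e.symm (e z)) :=
    (Finset.analyticAt_fun_sum _ fun a _ =>
      analyticAt_const.mul ((hb _ hz.2).1.2 a)).differentiableAt
  have a2 := (a1.hasFDerivAt.comp _
    (he' _ (e.map_source hz.1)).differentiableAt.hasFDerivAt).fderiv
  rw [e.left_inv hz.1] at a2
  exact fun h => h2 ((DFunLike.congr_fun a2 _).trans h)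

end Vale.Agent.P277Z.Bert
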