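import Vale.Agent.P277Z.Spec

/-!
# P277Z: calculus of values and coordinates on a model
-/

open scoped Manifold ContDiff Topology
open Set Filter
open Vale.Agent.P272.K (Cm Chart At)
open Vale.Agent.P297 (Place)

noncomputable section

namespace Vale.Agent.P277Z.Bert

variable {n N : ℕ} {K : Type} [Field K] [Algebra ℂ K] {M : Mdl n N K}

section mfd

variable {W : Type} [TopologicalSpace W] [ChartedSpace (Cm n) W]

theorem at_chart (x : W) : At (chartAt (Cm n) x) x := ⟨chart_mem_atlas _ _, mem_chart_source _ _⟩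

theorem tendsto_symm {e : Chart n W} {x : W} (he : At e x) : Tendsto e.symm (𝓝 (e x)) (𝓝 x) := by
  have := e.continuousAt_symm (e.map_source he.2)
  rwa [ContinuousAt, e.left_inv he.2] at this

theorem hol_cont {a : W → ℂ} {x : W} (h : Hol n a x) : ContinuousAt a x := by
  have he := at_chart (n := n) x
  have h1 := (h _ he).continuousAt.tendsto.comp ((chartAt (Cm n) x).continuousAt he.2)
  rw [(chartAt (Cm n) x).left_inv he.2] at h1
  refine h1.congr' ?_
  filter_upwards [(chartAt (Cm n) x).open_source.mem_nhds he.2] with y hy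
  simp [(chartAt (Cm n) x).left_inv hy]

omit [ChartedSpace (Cm n) W] in
theorem jd_ne_iff {g : Fin n → W → ℂ} {e : Chart n W} {x : W} :
    jd g e x ≠ 0 ↔ Function.Injective (fderiv ℂ (fun z i => g i (e.symm z)) (e x)) := by
  rw [jd, ← isUnit_iff_ne_zero, ← LinearMap.isUnit_iff_isUnit_det, LinearMap.isUnit_iff_ker_eq_bot,
    LinearMap.ker_eq_bot]
  rfl

theorem an_pi {g : Fin n → W → ℂ} {e : Chart n W} {x : W} (he : At e x)
    (h : ∀ i, Hol n (g i) x) : AnalyticAt ℂ (fun z i => g i (e.symm z)) (e x) :=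
  AnalyticAt.pi fun i => h i e he

variable [IsManifold 𝓘(ℂ, Cm n) ω W]

theorem fderiv_chg {E : Type} [NormedAddCommGroup E] [NormedSpace ℂ E] {g : W → E}
    {e e' : Chart n W} {x : W} (he : At e x) (he' : At e' x)
    (h : DifferentiableAt ℂ (fun z => g (e.symm z)) (e x)) :
    fderiv ℂ (fun z => g (e'.symm z)) (e' x) = (fderiv ℂ (fun z => g (e.symm z)) (e x)).comp
      (fderiv ℂ (fun z => e (e'.symm z)) (e' x)) := by
  have h1 : HasFDerivAt (fun z => g (e.symm z)) (fderiv ℂ (fun z => g (e.symm z)) (e x))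
      (e (e'.symm (e' x))) := by
    rw [e'.left_inv he'.2]
    exact h.hasFDerivAt
  refine ((h1.comp (e' x) (trans_an he he').differentiableAt.hasFDerivAt).congr_of_eventuallyEq
    ?_).fderiv
  filter_upwards [(tendsto_symm he').eventually (e.open_source.mem_nhds he.2)] with z hz
  simp [e.left_inv hz]

theorem trans_inj {e e' : Chart n W} {x : W} (he : At e x) (he' : At e' x) :
    Function.Injective (fderiv ℂ (fun z => e (e'.symm z)) (e' x)) := by
  have h1 := fderiv_chg (g := e') he he' (trans_an he' he).differentiableAt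
  have h2 : fderiv ℂ (fun z => e' (e'.symm z)) (e' x) = ContinuousLinearMap.id ℂ _ := by
    refine ((hasFDerivAt_id (e' x)).congr_of_eventuallyEq ?_).fderiv
    filter_upwards [e'.open_target.mem_nhds (e'.map_source he'.2)] with z hz
    exact e'.right_inv hz
  refine Function.Injective.of_comp (f := fderiv ℂ (fun z => e' (e.symm z)) (e x)) ?_
  rw [← ContinuousLinearMap.coe_comp, ← h1, h2]
  exact fun _ _ h => h

theorem jd_ne_of_chart {g : Fin n → W → ℂ} {e e' : Chart n W} {x : W} (he : At e x)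
    (he' : At e' x) (h : ∀ i, Hol n (g i) x) (h' : jd g e x ≠ 0) : jd g e' x ≠ 0 := by
  rw [jd_ne_iff] at h' ⊢
  rw [fderiv_chg (g := fun y i => g i y) he he' (an_pi he h).differentiableAt]
  exact h'.comp (trans_inj he he')

end mfd

theorem hol_of_mem {x : M.F} {f : K} (hf : f ∈ M.O x) : Hol n (M.val f) x := hf

theorem val_add {x : M.F} {f g : K} (hf : f ∈ M.O x) (hg : g ∈ M.O x) :
    ∀ᶠ y in 𝓝 (x : M.W), M.val (f + g) y = M.val f y + M.val g y :=
  M.val_eq x.2 (fun e he => (hf e he).add (hg e he))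
    ((M.val_add f g).filter_mono (gen_le_of (by simp)))

theorem val_mul {x : M.F} {f g : K} (hf : f ∈ M.O x) (hg : g ∈ M.O x) :
    ∀ᶠ y in 𝓝 (x : M.W), M.val (f * g) y = M.val f y * M.val g y :=
  M.val_eq x.2 (fun e he => (hf e he).mul (hg e he))
    ((M.val_mul f g).filter_mono (gen_le_of (by simp)))

theorem val_zero (y : M.W) : M.val 0 y = 0 := by simpa using M.val_const 0 y

theorem val_one (y : M.W) : M.val 1 y = 1 := by simpa using M.val_const 1 y

theorem val_sum {x : M.F} {ι : Type*} (s : Finset ι) {f : ι → K} (hf : ∀ i ∈ s, f i ∈ M.O x) :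
    ∀ᶠ y in 𝓝 (x : M.W), M.val (∑ i ∈ s, f i) y = ∑ i ∈ s, M.val (f i) y := by
  induction s using Finset.cons_induction with
  | empty => exact .of_forall fun y => val_zero y
  | cons a s ha ih =>
    have h1 := fun i hi => hf i (Finset.mem_cons_of_mem hi)
    filter_upwards [ih h1, val_add (hf a (Finset.mem_cons_self _ _)) (sum_mem h1)] with y h2 h3
    rw [Finset.sum_cons, Finset.sum_cons, h3, h2]

theorem val_lin {x : M.F} {ι : Type*} [Fintype ι] (c : ι → ℂ) {f : ι → K} (hf : ∀ i, f i ∈ M.O x) :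
    ∀ᶠ y in 𝓝 (x : M.W), M.val (∑ i, algebraMap ℂ K (c i) * f i) y = ∑ i, c i * M.val (f i) y := by
  filter_upwards [val_sum Finset.univ fun i _ => mul_mem ((M.O x).algebraMap_mem (c i)) (hf i),
    eventually_all.2 fun i => val_mul ((M.O x).algebraMap_mem (c i)) (hf i)] with y h1 h2
  rw [h1]
  exact Finset.sum_congr rfl fun i _ => by rw [h2, M.val_const]

theorem val_sub_const {x : M.F} {f : K} (hf : f ∈ M.O x) (c : ℂ) :
    ∀ᶠ y in 𝓝 (x : M.W), M.val (f - algebraMap ℂ K c) y = M.val f y - c := by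
  filter_upwards [val_add hf ((M.O x).algebraMap_mem (-c))] with y h
  rw [sub_eq_add_neg, ← map_neg, h, M.val_const, sub_eq_add_neg]

theorem mem_near {x : M.F} {f : K} (hf : f ∈ M.O x) : ∀ᶠ y in 𝓝 x, f ∈ M.O y :=
  continuous_subtype_val.continuousAt.eventually (hol_of_mem hf).near

theorem coord_of_chart {x : M.F} {t : Fin n → K} (h : ∀ i, t i ∈ M.O x ∧ M.val (t i) x = 0)
    {e : Chart n M.W} (he : At e (x : M.W))
    (h' : Function.Injective (fderiv ℂ (fun z i => M.val (t i) (e.symm z)) (e x))) :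
    M.Coord x t :=
  ⟨h, fun _ he' => jd_ne_of_chart he he' (fun i => (h i).1) (jd_ne_iff.2 h')⟩

theorem fderiv_val_mul {x : M.F} {f g : K} (hf : f ∈ M.O x) (hg : g ∈ M.O x)
    (h0 : M.val f x = 0) {e : Chart n M.W} (he : At e (x : M.W)) (v : Cm n) :
    fderiv ℂ (fun z => M.val (f * g) (e.symm z)) (e x) v =
      M.val g x * fderiv ℂ (fun z => M.val f (e.symm z)) (e x) v := by
  have := ((hf e he).differentiableAt.hasFDerivAt.mul (hg e he).differentiableAt.hasFDerivAt)
  rw [(this.congr_of_eventuallyEq ((tendsto_symm he).eventually (val_mul hf hg))).fderiv]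
  simp [e.left_inv he.2, h0]

theorem ord_unit (hL : Loc M) {x : M.F} {P : Place K} (hP : M.On x P) {f : K} (hf : f ∈ M.O x)
    (h : M.val f x ≠ 0) : P.ord f = 0 :=
  let ⟨_, ht⟩ := hP
  P297Z.Pl.ord_unit P (ht.le _ hf) (ht.le _ (hL.inv x f hf h))

theorem ord_nonneg {x : M.F} {P : Place K} (hP : M.On x P) {f : K} (hf : f ∈ M.O x) :
    0 ≤ P.ord f :=
  let ⟨_, ht⟩ := hP
  P297Z.Pl.ord_nonneg_of_mem P (ht.le _ hf)

theorem Gn.ne {x : M.F} {P : Place K} {t : K} (h : M.Gn x P t) : t ≠ 0 := by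
  rintro rfl
  simpa using h.ord

theorem Gn.unit (hL : Loc M) {x : M.F} {P : Place K} {t q : K} (h : M.Gn x P t) (hq : q ∈ M.O x)
    (h0 : M.val q x ≠ 0) : M.Gn x P (t * q) := by
  have q0 : q ≠ 0 := by
    rintro rfl
    exact h0 (val_zero _)
  refine ⟨mul_mem h.mem hq, ?_, ?_, h.le, fun f hf h1 => ?_, h.loc⟩
  · rw [(val_mul h.mem hq).self_of_nhds, h.van, zero_mul]
  · rw [P297Z.Pl.ord_mul P (Gn.ne h) q0, h.ord, ord_unit hL ⟨t, h⟩ hq h0, add_zero]
  · rw [← div_div, div_eq_mul_inv]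
    exact mul_mem (h.dvd f hf h1) (hL.inv x q hq h0)

/-- a function with non-zero differential is a local equation -/
theorem gn_of_fderiv (hL : Loc M) {x : M.F} {P : Place K} (hP : M.On x P) {g : K}
    (hg : g ∈ M.O x) (h0 : 0 < P.ord g) {e : Chart n M.W} (he : At e (x : M.W))
    (h : fderiv ℂ (fun z => M.val g (e.symm z)) (e x) ≠ 0) : M.Gn x P g := by
  obtain ⟨t, ht⟩ := hP
  have e1 : g = t * (g / t) := (mul_div_cancel₀ g (Gn.ne ht)).symm
  rw [e1] at h ⊢
  refine Gn.unit hL ht (ht.dvd g hg h0) fun h1 => h (ContinuousLinearMap.ext fun v => ?_)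
  rw [fderiv_val_mul ht.mem (ht.dvd g hg h0) ht.van he, h1, zero_mul]
  rfl

open Classical in
theorem div_apply (hL : Loc M) (f : K) (P : Place K) :
    M.div f P = if M.Pr P then (P.ord f : ℝ) else 0 := by
  rw [Mdl.div, mkDiv, dif_pos ((hL.fin f).subset fun Q hQ => by
    by_cases h : M.Pr Q
    · exact ⟨h, by simpa [h] using hQ⟩
    · simp [h] at hQ)]
  rfl

end Vale.Agent.P277Z.Bert
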