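import Vale.Agent.P277Z.Bert.Api
import Vale.Agent.P277Z.Bert.An

/-!
# P277Z: the theorem of Bertini
-/

open scoped Manifold ContDiff Topology
open Set Filter MeasureTheory
open Vale.Agent.P272.K (Cm Chart At)
open Vale.Agent.P297 (Place)

noncomputable section

namespace Vale.Agent.P277Z.Bert

variable {n N : ℕ} {K : Type} [Field K] [Algebra ℂ K] {M : Mdl n N K}

/-- the conclusion at one point -/
def Good (M : Mdl n N K) (T : Set (Place K)) (y : M.F) (g : K) : Prop :=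
  g ≠ 0 ∧ ∃ t, M.Coord y t ∧ ∀ P, M.On y P → P.ord g ≤ 1 ∧ (P ∈ T → P.ord g = 0) ∧
    (P ∈ T ∨ P.ord g ≠ 0 → ∃ i, M.Gn y P (t i))

theorem good_unit (hL : Loc M) {T : Set (Place K)} (hT : M.Snc T) {y : M.F} {g : K}
    (hg : g ∈ M.O y) (h : M.val g y ≠ 0) : Good M T y g := by
  obtain ⟨t, h1, h2⟩ := hT.2 y
  refine ⟨fun e => h (e ▸ val_zero _), t, h1, fun P hP => ?_⟩
  have := ord_unit hL hP hg h
  exact ⟨by omega, fun _ => this, fun h => h2 P (h.resolve_right (by simp [this])) hP⟩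

theorem good_zero (hL : Loc M) {T : Set (Place K)} {y : M.F} {g : K} (hg : g ∈ M.O y)
    (h : M.val g y = 0) {t : Fin n → K} (ht : ∀ i, t i ∈ M.O y)
    (hT : ∀ P ∈ T, M.On y P → ∃ i, M.Gn y P (t i)) {e : Chart n M.W} (he : At e (y : M.W))
    (hi : Function.Injective (fderiv ℂ (fun z i => M.val (t i) (e.symm z)) (e y))) {j : Fin n}
    {v : Cm n} (hj : M.val (t j) y ≠ 0)
    (hv : fderiv ℂ (fun z i => M.val (t i) (e.symm z)) (e y) v = Pi.single j 1)
    (hg' : fderiv ℂ (fun z => M.val g (e.symm z)) (e y) v ≠ 0) : Good M T y g := by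
  have hd := fun i => (ht i e he).differentiableAt
  rw [fderiv_pi hd] at hi hv
  have h0 : fderiv ℂ (fun z => M.val g (e.symm z)) (e y) ≠ 0 := fun e => hg' (by rw [e]; rfl)
  let t' : Fin n → K := fun i => if i = j then g else t i - algebraMap ℂ K (M.val (t i) y)
  have h1 : ∀ i, t' i ∈ M.O y ∧ M.val (t' i) y = 0 := fun i => by
    simp only [t']
    split_ifs
    · exact ⟨hg, h⟩
    · exact ⟨sub_mem (ht i) ((M.O y).algebraMap_mem _), by
        rw [(val_sub_const (ht i) _).self_of_nhds, sub_self]⟩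
  have h2 : ∀ i, i ≠ j → fderiv ℂ (fun z => M.val (t' i) (e.symm z)) (e y) =
      fderiv ℂ (fun z => M.val (t i) (e.symm z)) (e y) := fun i hi => by
    simp only [t', if_neg hi]
    exact (((hd i).hasFDerivAt.sub_const _).congr_of_eventuallyEq
      ((tendsto_symm he).eventually (val_sub_const (ht i) _))).fderiv
  refine ⟨fun e0 => h0 (by simp [e0, val_zero]), t', coord_of_chart h1 he ?_, fun P hP => ?_⟩
  · rw [fderiv_pi fun i => ((h1 i).1 e he).differentiableAt]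
    refine (injective_iff_map_eq_zero _).2 fun w hw => ?_
    have e1 : w = fderiv ℂ (fun z => M.val (t j) (e.symm z)) (e y) w • v := hi (funext fun i => by
      rw [map_smul, hv]
      by_cases hij : i = j
      · simp [hij]
      · have := congrFun hw i
        rw [ContinuousLinearMap.pi_apply, h2 i hij] at this
        simpa [hij] using this)
    have e2 := congrFun hw j
    rw [ContinuousLinearMap.pi_apply, show t' j = g from if_pos rfl, e1, map_smul] at e2
    rw [e1, (mul_eq_zero.1 e2).resolve_right hg', zero_smul]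
  have h3 := ord_nonneg hP hg
  have h4 : P.ord g ≠ 0 → M.Gn y P g := fun h => gn_of_fderiv hL hP hg (by omega) he h0
  have h5 : P ∈ T → ∃ i, i ≠ j ∧ M.Gn y P (t i) := fun h =>
    (hT P h hP).imp fun i hi => ⟨fun e => hj (e ▸ hi.van), hi⟩
  refine ⟨?_, fun h => ?_, fun h => h.elim (fun h => ?_) fun h => ⟨j, ?_⟩⟩
  · by_cases h : P.ord g = 0
    · omega
    · exact (h4 h).ord.le
  · by_contra h6
    obtain ⟨i, hij, hi⟩ := h5 h
    have := congrFun hv i
    rw [ContinuousLinearMap.pi_apply] at this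
    refine hg' ?_
    rw [← mul_div_cancel₀ g (Gn.ne hi), fderiv_val_mul hi.mem (hi.dvd g hg (by omega)) hi.van he,
      this]
    simp [hij]
  · obtain ⟨i, hij, hi⟩ := h5 h
    exact ⟨i, by simpa [t', hij, hi.van] using hi⟩
  · simpa [t'] using h4 h

theorem loc_good (hL : Loc M) {T : Set (Place K)} (hf : T.Finite) (hT : M.Snc T) {ι : Type}
    [Fintype ι] {u : ι → K} {x : M.F} (hu : ∀ a, u a ∈ M.O x) (a₀ : ι) (h1 : u a₀ = 1) :
    ∃ V ∈ 𝓝 x, ∀ᵐ c : ι → ℂ, ∀ y ∈ V, Good M T y (∑ a, algebraMap ℂ K (c a) * u a) := by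
  obtain ⟨t, ht, hP⟩ := hT.2 x
  have he := at_chart (n := n) (x : M.W)
  set e := chartAt (Cm n) (x : M.W)
  obtain ⟨U, hU, hi, hc⟩ := core (an_pi he fun i => (ht.1 i).1)
    (funext fun i => by rw [e.left_inv he.2, (ht.1 i).2]; rfl) (jd_ne_iff.1 (ht.2 e he))
    (u := fun a z => M.val (u a) (e.symm z)) (fun a => hu a e he) a₀
    (.of_forall fun z => by rw [h1, val_one])
  have hV : ∀ᶠ y : M.F in 𝓝 x, ((y : M.W) ∈ e.source ∧ e y ∈ U) ∧ (∀ a, u a ∈ M.O y) ∧
      (∀ i, t i ∈ M.O y) ∧ ∀ P ∈ T, M.On y P → ∃ i, M.Gn y P (t i) := by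
    refine (continuous_subtype_val.continuousAt.eventually ((e.open_source.eventually_mem he.2).and
      ((e.continuousAt he.2).eventually hU))).and ((eventually_all.2 fun a => mem_near (hu a)).and
      ((eventually_all.2 fun i => mem_near (ht.1 i).1).and
        ((eventually_all_finite hf).2 fun P hPT => ?_)))
    by_cases h : M.On x P
    · obtain ⟨i, hi⟩ := hP P hPT h
      exact (hL.near_gn x P _ hi).mono fun y hy h' => ⟨i, hy.1 h'⟩
    · exact (hL.near x P).mono fun y hy h' => absurd (hy h') h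
  refine ⟨_, hV, hc.mono fun c hc y ⟨⟨h2, h3⟩, h4, h5, h6⟩ => ?_⟩
  have hg : ∑ a, algebraMap ℂ K (c a) * u a ∈ M.O y :=
    sum_mem fun a _ => mul_mem ((M.O y).algebraMap_mem _) (h4 a)
  by_cases h0 : M.val (∑ a, algebraMap ℂ K (c a) * u a) y = 0
  · obtain ⟨j, v, k1, k2, k3⟩ := hc _ h3 (by
      rw [e.left_inv h2, ← (val_lin c h4).self_of_nhds, h0])
    refine good_zero hL hg h0 h5 h6 ⟨he.1, h2⟩ (hi _ h3) (by rwa [e.left_inv h2] at k1) k2 ?_
    have e1 : (fun z => M.val (∑ a, algebraMap ℂ K (c a) * u a) (e.symm z)) =ᶠ[𝓝 (e y)]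
        fun z => ∑ a, c a * M.val (u a) (e.symm z) :=
      (tendsto_symm ⟨he.1, h2⟩).eventually (val_lin c h4)
    rwa [e1.fderiv_eq]
  · exact good_unit hL hT hg h0

theorem bert_of {n : ℕ} (h : LOC n) : BERT n := by
  intro N K _ _ M hM T D s hf hT hD _ hs hg
  have hL := h N K M hM
  have key : ∀ x : M.F, ∃ V ∈ 𝓝 x, ∀ᵐ c : s → ℂ, ∀ y ∈ V, ∃ g, Good M T y g ∧ ∃ q : K, q ≠ 0 ∧
      ∑ a : s, algebraMap ℂ K (c a) * a = g * q ∧ ∀ P, M.On y P → (P.ord q : ℝ) + D P = 0 := by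
    intro x
    obtain ⟨q, hq, q0, hq'⟩ := hg x
    obtain ⟨V, hV, hc⟩ := loc_good hL hf hT (u := fun a : s => a / q) (x := x)
      (fun a => hL.mem x _ fun P hP => by
        by_cases a0 : (a : K) = 0
        · simp [a0]
        · have h1 := (hs a a.2).resolve_left a0 P ⟨x, hP⟩
          have h2 := hq' P hP
          rw [P297Z.Pl.ord_div P a0 q0, ← Int.cast_nonneg_iff (R := ℝ)]
          push_cast
          linarith) ⟨q, hq⟩ (div_self q0)
    have hW : ∀ᶠ y : M.F in 𝓝 x, ∀ P ∈ {P | M.Pr P ∧ P.ord q ≠ 0} ∪ (D.support : Set _),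
        M.On y P → M.On x P :=
      (eventually_all_finite ((hL.fin q).union D.support.finite_toSet)).2 fun P _ => hL.near x P
    refine ⟨_, inter_mem hV hW, hc.mono fun c hc y hy => ⟨_, hc y hy.1, q, q0, ?_, fun P hP => ?_⟩⟩
    · rw [Finset.sum_mul]
      exact Finset.sum_congr rfl fun a _ => by rw [mul_assoc, div_mul_cancel₀ _ q0]
    · by_cases h1 : P ∈ {P | M.Pr P ∧ P.ord q ≠ 0} ∪ (D.support : Set _)
      · exact hq' P (hy.2 P h1 hP)
      · simp only [mem_union, Set.mem_ofPred_eq, Finset.mem_coe, Finsupp.mem_support_iff, not_or,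
          not_and, not_not] at h1
        rw [h1.1 ⟨y, hP⟩, h1.2]
        simp
  choose V hV hc using key
  have : CompactSpace M.F := isCompact_iff_compactSpace.1 M.cpt
  obtain ⟨J, hJ⟩ := CompactSpace.elim_nhds_subcover V hV
  filter_upwards [(eventually_all_finset J).2 fun x _ => hc x] with c hc
  have k1 : ∀ y : M.F, ∃ g, Good M T y g ∧ ∑ a : s, algebraMap ℂ K (c a) * a ≠ 0 ∧
      ∀ P, M.On y P → (M.div (∑ a : s, algebraMap ℂ K (c a) * a) + D) P = P.ord g := fun y => by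
    obtain ⟨x, hx, hy⟩ := mem_iUnion₂.1 (hJ.ge (mem_univ y))
    obtain ⟨g, h1, q, q0, e, h2⟩ := hc x hx y hy
    refine ⟨g, h1, e ▸ mul_ne_zero h1.1 q0, fun P hP => ?_⟩
    rw [Finsupp.add_apply, div_apply hL, if_pos ⟨y, hP⟩, e, P297Z.Pl.ord_mul P h1.1 q0]
    have := h2 P hP
    push_cast
    linarith
  have k2 : ∀ P, ¬ M.Pr P → (M.div (∑ a : s, algebraMap ℂ K (c a) * a) + D) P = 0 := fun P hP => by
    rw [Finsupp.add_apply, div_apply hL, if_neg hP, zero_add]
    exact Finsupp.notMem_support_iff.1 fun h => hP (hD P h)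
  obtain ⟨x₀, hx₀⟩ := M.conn.nonempty
  refine ⟨_, rfl, (k1 ⟨x₀, hx₀⟩).choose_spec.2.1, fun P => ?_, fun P hP => ?_, fun P hP => ?_,
    fun y => ?_⟩
  · by_cases hP : M.Pr P
    · obtain ⟨y, hy⟩ := hP
      obtain ⟨g, ⟨-, t, -, h1⟩, -, h2⟩ := k1 y
      rw [h2 P hy]
      exact_mod_cast (h1 P hy).1
    · rw [k2 P hP]
      exact zero_le_one
  · obtain ⟨y, hy⟩ := hT.1 P hP
    obtain ⟨g, ⟨-, t, -, h1⟩, -, h2⟩ := k1 y
    rw [h2 P hy, (h1 P hy).2.1 hP, Int.cast_zero]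
  · exact hP.elim (hT.1 P) fun h => by_contra fun h' => Finsupp.mem_support_iff.1 h (k2 P h')
  · obtain ⟨g, ⟨-, t, h0, h1⟩, -, h2⟩ := k1 y
    refine ⟨t, h0, fun P hP hy => (h1 P hy).2.2 (hP.imp_right fun h h' => ?_)⟩
    exact Finsupp.mem_support_iff.1 h (by rw [h2 P hy, h', Int.cast_zero])

end Vale.Agent.P277Z.Bert
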